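import Vale.Agent.P048.Main

/-!
# P048: the Erdős–Faudree–Rousseau–Schelp identity for claw-free graphs
-/

namespace Vale.Agent.Results.P048.ClawFreeGraphs

open Vale.Agent.P048

/-- For `1 ≤ n ≤ m`, `5 ≤ m`, every claw-free graph on at least `(m-1)(n-1)+1` vertices contains
`C_m` or `n` independent vertices, and some claw-free graph on `(m-1)(n-1)` vertices contains
neither. -/
theorem result (m n : ℕ) (hm : 5 ≤ m) (hn : 1 ≤ n) (hnm : n ≤ m) :
    (∀ (V : Type) [Fintype V] (G : SimpleGraph V),
      ¬ (completeBipartiteGraph (Fin 1) (Fin 3)).IsIndContained G →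
      (m - 1) * (n - 1) + 1 ≤ Fintype.card V →
        (SimpleGraph.cycleGraph m).IsContained G ∨ ¬ G.IndepSetFree n) ∧
    ∃ G : SimpleGraph (Fin ((m - 1) * (n - 1))),
      ¬ (completeBipartiteGraph (Fin 1) (Fin 3)).IsIndContained G ∧
        ¬ (SimpleGraph.cycleGraph m).IsContained G ∧ G.IndepSetFree n := by
  classical
  refine ⟨fun V _ G hG hV => ?_, ?_⟩
  · rcases cycle_or_indep_finset (clawFree_of_not_isIndContained hG) hm (n - 1) (by omega)
      Finset.univ (by rw [Finset.card_univ]; omega) with ⟨f, hf⟩ | ⟨t, -, htc, hti⟩
    · exact Or.inl (cycleGraph_isContained (by omega) hf)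
    · refine Or.inr fun h => h t ⟨?_, by omega⟩
      intro x hx y hy _
      exact hti x hx y hy
  · let G : SimpleGraph (Fin ((m - 1) * (n - 1))) :=
      { Adj := fun a b => a ≠ b ∧ a.val / (m - 1) = b.val / (m - 1)
        symm := ⟨fun a b h => ⟨h.1.symm, h.2.symm⟩⟩
        loopless := ⟨fun a h => h.1 rfl⟩ }
    refine ⟨G, ?_, ?_, ?_⟩
    · rintro ⟨e⟩
      have h : ∀ i : Fin 3, G.Adj (e (Sum.inl 0)) (e (Sum.inr i)) := fun i =>
        e.map_adj_iff.2 (by simp [completeBipartiteGraph_adj])
      have : G.Adj (e (Sum.inr 0)) (e (Sum.inr 1)) :=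
        ⟨fun he => by simpa using e.injective he, (h 0).2.symm.trans (h 1).2⟩
      simpa [completeBipartiteGraph_adj] using e.map_adj_iff.1 this
    · rintro ⟨f⟩
      have hconst : ∀ r (hr : r < m), (f.toHom ⟨r, hr⟩).val / (m - 1) =
          (f.toHom ⟨0, by omega⟩).val / (m - 1) := by
        intro r
        induction r with
        | zero => exact fun _ => rfl
        | succ r ih =>
          intro hr
          refine Eq.trans ?_ (ih (by omega))
          have hadj : (SimpleGraph.cycleGraph m).Adj ⟨r + 1, hr⟩ ⟨r, by omega⟩ := by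
            rw [SimpleGraph.cycleGraph_adj']
            refine Or.inl ?_
            rw [Fin.val_sub, show m - r + (r + 1) = 1 + m by omega, Nat.add_mod_right,
              Nat.mod_eq_of_lt (by omega)]
          exact (f.toHom.map_adj hadj).2
      have hinj : Function.Injective
          (fun i : Fin m => (⟨(f.toHom i).val % (m - 1), Nat.mod_lt _ (by omega)⟩ : Fin (m - 1))) := by
        intro i j hij
        simp only [Fin.mk.injEq] at hij
        refine f.injective (Fin.ext ?_)
        have h := (hconst i.1 i.2).trans (hconst j.1 j.2).symm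
        have hi := Nat.mod_add_div (f.toHom i).val (m - 1)
        have hj := Nat.mod_add_div (f.toHom j).val (m - 1)
        rw [Fin.eta, Fin.eta] at h
        rw [h, hij] at hi
        exact hi.symm.trans hj
      have := Fintype.card_le_of_injective _ hinj
      simp only [Fintype.card_fin] at this
      omega
    · intro t ht
      have hle : t.card ≤ n - 1 := by
        refine (Finset.card_le_card_of_injOn (fun a => a.val / (m - 1))
          (t := Finset.range (n - 1)) ?_ ?_).trans (Finset.card_range _).le
        · intro a _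
          simpa using Nat.div_lt_of_lt_mul a.2
        · intro a ha b hb hab
          by_contra hne
          exact ht.1 ha hb hne ⟨hne, hab⟩
      have := ht.2
      omega

end Vale.Agent.Results.P048.ClawFreeGraphs
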